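import Vale.Agent.P068.Main
import Vale.Agent.P068.Bounded

/-! P068: packing/covering for repeated families of matroids with small circuits. -/

namespace Vale.Agent.Results.P068.SmallCircuitFamilies

open Cardinal Vale.Agent.P068

universe u

theorem result :
    (∀ {α Θ : Type u} [Infinite Θ] (E : Set α) (M : Θ → Matroid α), (∀ i, (M i).E = E) →
      (∀ i C, (M i).IsCircuit C → #C ≤ #Θ) → (∀ i, #{j // M j = M i} = #Θ) →
      HasPackingCovering E M) ∧
    (∀ {α Θ : Type u} (κ : Cardinal.{u}), ℵ₀ ≤ κ → #Θ ≤ κ →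
      ∀ (E : Set α) (M : Θ → Matroid α), (∀ i, (M i).E = E) →
      (∀ i I, (M i).Indep I → #I ≤ κ) →
      (∀ (E' : Set α) (M' : Θ → Matroid α), #E' ≤ κ → (∀ i, (M' i).E = E') →
        HasPackingCovering E' M') →
      HasPackingCovering E M) :=
  ⟨fun {α Θ} _ E M hE hK hrep => hasPC_of_small_circuits E M hE hK hrep,
   fun {α Θ} κ hκ hΘ E M hE hrk hs => hasPC_of_small κ hκ hΘ E M hE hrk hs⟩

end Vale.Agent.Results.P068.SmallCircuitFamilies
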