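import Vale.Agent.P068.Uniform

/-! P068: uniform members never obstruct packing/covering. -/

namespace Vale.Agent.Results.P068.UniformMembers

open Vale.Agent.P068

universe u v w

theorem result :
    (∀ {α : Type u} {Θ : Type v} {K : Type w} (E : Set α) (M : Θ → Matroid α)
      (U : K → Matroid α), (∀ i, (M i).E = E) → (∀ k, (U k).E = E) →
      (∀ k X, X ⊆ E → (U k).Indep X ∨ (U k).Spanning X) →
      HasPackingCovering E M → HasPackingCovering E (Sum.elim M U)) ∧
    (∀ {α : Type u} {Θ : Type v} (E : Set α) (M : Θ → Matroid α), (∀ i, (M i).E = E) →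
      (∀ i j, i ≠ j → (∀ X, X ⊆ E → (M i).Indep X ∨ (M i).Spanning X) ∨
        (∀ X, X ⊆ E → (M j).Indep X ∨ (M j).Spanning X)) →
      HasPackingCovering E M) :=
  ⟨fun _ M U hM hU hu h => hasPC_sum_uniform M U hM hU hu h,
   fun _ M hM h1 => hasPC_uniform_but_one M hM h1⟩

end Vale.Agent.Results.P068.UniformMembers
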